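import Vale.Agent.P144Q.Basic
import Vale.Agent.P144Q.L.Fat
import Vale.Agent.P144G.Out

/-!
Existence of the scaling limits for the plus boundary condition: the dual free model lives on the
graph of the corners and sides of the cells of `P`. Definitions and statements of the blocks.
-/

namespace Vale.Agent.P144S

open Filter Topology Metric Vale.Agent.P144 Vale.Agent.P144Q
open Vale.Agent.P144.H170 (Pt pt nf CConv HD rM bx)
open Vale.Agent.P144.AL (Cn cnr lap tauR theA cutS el fcs sps Pf)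
open Vale.Agent.P144G (KC Exg)

/-- The corners of the cells of `P`. -/
def Vx (P : Finset Site) : Finset Site := P.biUnion cnr

/-- The indicator of the horizontal sides of cells, by the left end. -/
noncomputable def ih (P : Finset Site) (x : Site) : ℝ :=
  if x ∈ P ∨ ((x.1, x.2 - 1) : Site) ∈ P then 1 else 0

/-- The indicator of the vertical sides of cells, by the lower end. -/
noncomputable def iv (P : Finset Site) (x : Site) : ℝ :=
  if x ∈ P ∨ ((x.1 - 1, x.2) : Site) ∈ P then 1 else 0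

/-- The complement is connected by nearest-neighbour moves. -/
def NC (P : Finset Site) : Prop := ∀ v ∉ P, ∀ w ∉ P,
  Relation.ReflTransGen (fun x y : Site => y ∉ P ∧ |x.1 - y.1| + |x.2 - y.2| = 1) v w

/-- Unnormalised correlation of the spins `A` and the disorders `R`. -/
noncomputable def QQ (P : Finset Site) (R A : Multiset Site) : ℝ :=
  AL.NG (Vx P) (fun x => ih P x * cutS R x) (iv P) A

/-- The disorder correlation. -/
noncomputable def MM (P : Finset Site) (R : Multiset Site) : ℝ := QQ P R 0 / QQ P 0 0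

/-- The correlation of the fermions `l` in the presence of the disorders `R`. -/
noncomputable def Wf (P : Finset Site) (R : Multiset Site) (l : List Cn) : ℝ :=
  el l * QQ P (fcs l + R) (sps l) / QQ P R 0

/-- The values at the lower left corners of the faces. -/
noncomputable def xA (P : Finset Site) (R A : Multiset Site) (Z : ℝ) (f : Site) : ℝ :=
  if f ∈ Vx P then QQ P (f ::ₘ R) (f ::ₘ A) / Z else 0

/-- The values at the lower right corners. -/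
noncomputable def xB (P : Finset Site) (R A : Multiset Site) (Z : ℝ) (f : Site) : ℝ :=
  if ((f.1 + 1, f.2) : Site) ∈ Vx P then QQ P (f ::ₘ R) ((f.1 + 1, f.2) ::ₘ A) / Z else 0

/-- The values at the upper left corners. -/
noncomputable def xC (P : Finset Site) (R A : Multiset Site) (Z : ℝ) (f : Site) : ℝ :=
  if ((f.1, f.2 + 1) : Site) ∈ Vx P then QQ P (f ::ₘ R) ((f.1, f.2 + 1) ::ₘ A) / Z else 0

/-- The values at the upper right corners. -/
noncomputable def xD (P : Finset Site) (R A : Multiset Site) (Z : ℝ) (f : Site) : ℝ :=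
  if ((f.1 + 1, f.2 + 1) : Site) ∈ Vx P then
    QQ P (f ::ₘ R) ((f.1 + 1, f.2 + 1) ::ₘ A) / Z else 0

/-- A solution of the relations of the graph of `P`. -/
structure Spr (P : Finset Site) (τ θ : Site → ℝ) (A B C D : Site → ℝ) : Prop where
  τ2 : ∀ f, τ f * τ f = 1
  θ2 : ∀ f, θ f * θ f = 1
  zA : ∀ i j : ℤ, ((i, j) : Site) ∉ Vx P → A (i, j) = 0
  zB : ∀ i j : ℤ, ((i + 1, j) : Site) ∉ Vx P → B (i, j) = 0
  zC : ∀ i j : ℤ, ((i, j + 1) : Site) ∉ Vx P → C (i, j) = 0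
  zD : ∀ i j : ℤ, ((i + 1, j + 1) : Site) ∉ Vx P → D (i, j) = 0
  V : ∀ i j : ℤ, ((i, j) : Site) ∈ P ∨ ((i, j + 1) : Site) ∈ P →
    C (i, j) = √2 * A (i, j + 1) - τ (i, j) * B (i, j + 1) ∧
    D (i, j) = √2 * B (i, j + 1) - τ (i, j) * A (i, j + 1)
  V0 : ∀ i j : ℤ, ((i, j) : Site) ∉ P → ((i, j + 1) : Site) ∉ P →
    C (i, j) = A (i, j + 1) ∧ D (i, j) = B (i, j + 1)
  H : ∀ i j : ℤ, ((i, j) : Site) ∈ P ∨ ((i + 1, j) : Site) ∈ P →
    B (i, j) = θ (i, j) * (√2 * A (i + 1, j) - C (i + 1, j)) ∧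
    D (i, j) = -(θ (i, j) * (√2 * C (i + 1, j) - A (i + 1, j)))
  H0 : ∀ i j : ℤ, ((i, j) : Site) ∉ P → ((i + 1, j) : Site) ∉ P →
    B (i, j) = θ (i, j) * A (i + 1, j) ∧ D (i, j) = -(θ (i, j) * C (i + 1, j))

/-- The `H`-function. -/
structure IsH (P : Finset Site) (A B C D Hs Hf : Site → ℝ) : Prop where
  h : AL.IsH (Vx P) A B C D Hs Hf
  zero : ∀ f ∉ P, Hf f = 0

/-- The modification of `Hs` at the ends of the missing edges. -/
noncomputable def hat (P : Finset Site) (Hs : Site → ℝ) (x : Site) : ℝ :=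
  Hs x + 1 / 5 * ((1 - ih P x) * Hs (x.1 + 1, x.2) + (1 - ih P (x.1 - 1, x.2)) * Hs (x.1 - 1, x.2) +
    (1 - iv P x) * Hs (x.1, x.2 + 1) + (1 - iv P (x.1, x.2 - 1)) * Hs (x.1, x.2 - 1))

/-- `h` is the limit of `U`, its negative part that of `W`; both are subharmonic off `K`. -/
structure UData (D : Set ℂ) {ι : Type} (l : Filter ι) (a : ι → ℝ) (U W : ι → Site → ℝ)
    (K : Set ℂ) (h : ℂ → ℝ) : Prop where
  ne : l.NeBot
  a0 : Tendsto a l (𝓝[>] 0)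
  cpt : IsCompact K
  sub : K ⊆ D
  sh : ∀ z ∈ Dia \ K, ∀ᶠ kx in nf l a z, 0 ≤ lap (U kx.1) kx.2 ∧ 0 ≤ lap (W kx.1) kx.2
  bdd : ∀ z ∈ Dia \ K, ∃ M, ∀ᶠ kx in nf l a z, U kx.1 kx.2 ≤ M ∧ W kx.1 kx.2 ≤ M
  far : ∀ ε > (0 : ℝ), ∀ᶠ k in l, ∀ x, (∀ z ∈ D, ε < ‖pt (a k) x - z‖) → U k x = 0 ∧ W k x = 0
  hu : CConv l a (D \ K) U h
  hw : CConv l a (D \ K) W fun z => max (-h z) 0

/-- A small domain with its boundary condition. -/
structure DomP extends Dom where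
  vanU : ∀ {ι : Type} {l : Filter ι} {a : ι → ℝ} {U W : ι → Site → ℝ} {K : Set ℂ} {h : ℂ → ℝ},
    UData D l a U W K h → Van D h
  bdU : ∀ {ι : Type} {l : Filter ι} {a : ι → ℝ} {U W : ι → Site → ℝ} {K : Set ℂ} {h : ℂ → ℝ},
    UData D l a U W K h → ∀ F : ℂ → ℂ, DifferentiableOn ℂ F (D \ K) →
      (∀ z ∈ D \ K, HD h (fun w => H365.cH * F w) z) → Bd F

/-- The family of sets of cells `P` approximates `D`. -/
def FamP (D : Set ℂ) (P : ℝ → Finset Site) : Prop := Fam0 D P ∧ ∀ᶠ a in 𝓝[>] (0 : ℝ), NC (P a)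

/-- Unions of aligned blocks of four cells. -/
def Blk (P : Finset Site) : Prop := ∀ x y : Site, x.1 / 2 = y.1 / 2 → x.2 / 2 = y.2 / 2 →
  x ∈ P → y ∈ P

/-- Families of unions of blocks. -/
def FamB (D : Set ℂ) (P : ℝ → Finset Site) : Prop :=
  FamP D P ∧ (∀ a, Blk (P a)) ∧ Fam0 D fun a => Vx (P a)

/-- The two corners of the energy of the primal edge from `v` in the direction `j`. -/
def ce (v : Site) (j : Fin 2) (b : Bool) : Cn := (v + dir j, if b then v + dir j else v)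

/-- The corners of the energies of `p`. -/
noncomputable def cp (p : Pts) (a : ℝ) (k : Fin p.m) (b : Bool) : Cn :=
  ce (fl a (p.y k)) (p.j k) b

/-- The disorders of `p`. -/
noncomputable def Rq (p : Pts) (a : ℝ) : Multiset Site := rM fun i => fl a (p.x i)

/-- Two energies. -/
def K3P (P : ℝ → Finset Site) (p : Pts) : Prop := ∀ k l : Fin p.m, k ≠ l → ∀ b b' : Bool,
  ∃ c : ℝ, Tendsto (fun a : ℝ => Wf (P a) (Rq p a) [cp p a k b, cp p a l b'] / a) (𝓝[>] 0) (𝓝 c)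

/-- The two corners of an energy. -/
def K4P (P : ℝ → Finset Site) (p : Pts) : Prop := ∀ k : Fin p.m, ∃ c : ℝ,
  Tendsto (fun a : ℝ => (Wf (P a) (Rq p a) [cp p a k false, cp p a k true] -
    Wf (P a) 0 [cp p a k false, cp p a k true]) / a) (𝓝[>] 0) (𝓝 c)

/-- The critical model with the plus boundary condition. -/
noncomputable def pl (J : ℝ) (P : Finset Site) : (Config → ℝ) → ℝ :=
  gibbs J 0 (fun _ => 0) (Kc / J) (some fun _ => true) P

/-- Its spin correlations. -/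
noncomputable def sP (J : ℝ) (P : Finset Site) (R : Multiset Site) : ℝ :=
  pl J P fun σ => (R.map fun x => sp (σ x)).prod

/-- The rescaled spin correlations. -/
noncomputable def GP (J : ℝ) (P : ℝ → Finset Site) (X : Finset ℂ) (a : ℝ) : ℝ :=
  a ^ (-(X.card : ℝ) / 8) * sP J (P a) (X.val.map (fl a))

/-- The rescaled correlation of the spins at `X` has the same positive limit in all families. -/
def NormX (J : ℝ) (D : Set ℂ) (X : Finset ℂ) : Prop :=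
  ∃ g > 0, ∀ P, FamP D P → Tendsto (GP J P X) (𝓝[>] 0) (𝓝 g)

/-- Ratios of disorder correlations converge, for both parities. -/
def RatioO (D : Set ℂ) (Λ : ℝ → Finset Site) : Prop := ∀ X X' : Finset ℂ, (∀ z ∈ X, z ∈ D) →
  (∀ z ∈ X', z ∈ D) → X.card = X'.card →
    ∃ ρ > 0, Tendsto (fun a => Mn Λ a X / Mn Λ a X') (𝓝[>] 0) (𝓝 ρ)

/-- Points far from `D` are joined to infinity away from `D`. -/
def Out (D : Set ℂ) : Prop := ∀ ε > (0 : ℝ), ∃ δ > (0 : ℝ), ∀ z w : ℂ, ε ≤ infDist z D →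
  ε ≤ infDist w D → JoinedIn {u | δ ≤ infDist u D} z w

/-- One chart whose outer cones have an opening of at least a right angle. -/
def Chart4 (D : Set ℂ) (γ r : ℝ) (z : ℂ) : Prop :=
  ∃ (κ : ℝ) (S₁ S₂ : Set ℂ) (ν₁ ν₂ μ : ℂ), 0 ≤ κ ∧ 2 * κ ^ 2 ≤ 1 ∧ ‖ν₁‖ = 1 ∧ ‖ν₂‖ = 1 ∧ ‖μ‖ = 1 ∧
    κ + γ ≤ L.ip μ ν₁ ∧ κ + γ ≤ L.ip μ ν₂ ∧ P144Z.Cone S₁ ν₁ κ ∧ P144Z.Cone S₂ ν₂ κ ∧
      D ∩ ball z r = S₁ ∩ S₂ ∩ ball z r

/-- The class of domains for the plus boundary condition. -/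
def Lip4 (D : Set ℂ) : Prop :=
  IsOpen D ∧ Bornology.IsBounded D ∧ ∃ γ r : ℝ, 0 < γ ∧ 0 < r ∧ ∀ z, Chart4 D γ r z

/-! ### The blocks -/

/-- The `H`-function exists. -/
def SEx : Prop := ∀ P τ θ A B C D, Spr P τ θ A B C D → NC P → ∃ Hs Hf, IsH P A B C D Hs Hf

/-- The Laplacians. -/
def SLap : Prop := ∀ P τ θ A B C D Hs Hf, Spr P τ θ A B C D → IsH P A B C D Hs Hf → ∀ x : Site,
  Hs x ≤ hat P Hs x ∧
  (θ (x.1 - 1, x.2) = θ (x.1 - 1, x.2 - 1) → hat P Hs x - Hs x ≤ lap (hat P Hs) x) ∧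
  (x ∈ P → τ (x.1, x.2) = τ (x.1, x.2 - 1) → lap Hf x ≤ 0)

/-- Uniqueness of the solutions without sources. -/
def SUnq : Prop := ∀ P τ θ A B C D, Spr P τ θ A B C D → NC P →
  (∀ i j : ℤ, θ (i - 1, j) = θ (i - 1, j - 1)) → ∀ f, A f = 0 ∧ B f = 0 ∧ C f = 0 ∧ D f = 0

/-- Masses of the cut-off `H`-function. -/
def SCut : Prop := ∀ (P : Finset Site) (τ θ A B C E Hs Hf : Site → ℝ) (Q R G : Finset Site)
  (c : Site) (n : ℕ) (L : ℝ), Spr P τ θ A B C E → IsH P A B C E Hs Hf → NC P → Exg P τ θ Q R G →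
  0 < n → 0 ≤ L → Q ⊆ bx c n → R \ G ⊆ bx c n → (∀ f ∈ G, f ∉ bx c (8 * n)) →
  (∀ x ∈ bx c (8 * n + 1), x ∈ P) → (∀ x ∈ bx c (8 * n), x ∉ bx c (n - 1) → |Hs x| ≤ L) →
  (∀ x ∈ bx c (8 * n), x ∉ bx c (n - 1) → |Hf x| ≤ L) → ∀ T : Finset Site,
    ∑ x ∈ T, |lap (fun x => (1 - H135.CT c (2 * n) x) * Hs x) x| +
      ∑ x ∈ T, |lap (fun x => (1 - H135.CT c (2 * n) x) * Hf x) x| ≤ 900000 * L

/-- Local `ℓ²` bound by the masses. -/
def SSq : Prop := ∀ (P : Finset Site) (τ θ A B C E Hs Hf : Site → ℝ) (c : Site) (m : ℕ)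
  (U W : Site → ℝ) (M : ℝ), Spr P τ θ A B C E → IsH P A B C E Hs Hf → (∀ x ∉ Vx P, U x = 0) →
  (∀ x ∉ Vx P, W x = 0) → (∀ x ∉ bx c m, U x = Hs x) → (∀ x ∉ bx c m, W x = Hf x) →
  (∀ T : Finset Site, ∑ w ∈ T, |lap U w| ≤ M) → (∀ T : Finset Site, ∑ w ∈ T, |lap W w| ≤ M) →
  ∀ (c' : Site) (r : ℕ) (T : Finset Site), (∀ x ∈ T, x ∈ bx c' r ∧ x ∉ bx c (m + 2) ∧ x ∈ P) →
    ∑ x ∈ T, (A x ^ 2 + B x ^ 2 + C x ^ 2 + E x ^ 2) ≤ 1152 * M * (r + 2)

/-- The correlations solve the relations. -/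
def SSpr : Prop := ∀ (P : Finset Site) (R A : Multiset Site) (Z : ℝ), (∀ v ∈ A, v ∈ Vx P) →
  Spr P (tauR R) (theA A) (xA P R A Z) (xB P R A Z) (xC P R A Z) (xD P R A Z)

/-- The correlations of fermions are Pfaffians. -/
def SPf : Prop := ∀ P, NC P → ∀ (R : Multiset Site) (l : List Cn),
  (∀ c ∈ l, c.1 ∈ cnr c.2 ∧ c.1 ∈ Vx P) → l.Nodup → Even l.length →
    Wf P R l = Pf (fun c c' => Wf P R [c, c']) l

/-- Kramers-Wannier duality. -/
def SKW : Prop := ∀ J > (0 : ℝ), ∀ P, NC P → ∀ R, MM P R = sP J P R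

/-- For unions of blocks the graph is the induced one. -/
def SBlk : Prop := ∀ P, Blk P → (∀ R A, QQ P R A = AL.QQ (Vx P) R A) ∧ (NC P → KC (Vx P))

/-- The limit of the `H`-function at the boundary. -/
def SVanU : Prop := ∀ D : Set ℂ, IsOpen D → D ⊆ ball 0 (1 / 4) → Fat D →
  ∀ {ι : Type} {l : Filter ι} {a : ι → ℝ} {U W : ι → Site → ℝ} {K : Set ℂ} {h : ℂ → ℝ},
    UData D l a U W K h → Van D h ∧ Sgn D h

/-- The domains of the class give the abstract data. -/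
def SDomP : Prop := ∀ D : Set ℂ, L.Lip3 D → IsSimplyConnected D → D ⊆ ball 0 (1 / 4) →
  ∃ Ω : DomP, Ω.D = D

/-- The kernels. -/
def SK34P : Prop := ∀ (Ω : DomP) (P : ℝ → Finset Site), FamP Ω.D P → ∀ p, Good0 Ω.D p →
  K3P P p ∧ K4P P p

/-- The correlations from the kernels. -/
def SAsmP : Prop := ∀ J > (0 : ℝ), ∀ (D : Set ℂ) (P : ℝ → Finset Site), FamP D P →
  (∀ p, Good0 D p → K3P P p ∧ K4P P p) → (∀ X : Finset ℂ, (∀ z ∈ X, z ∈ D) → NormX J D X) →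
    AllLim D fun a => pl J (P a)

/-- The lattice approximation. -/
def SLatP : Prop := ∀ D : Set ℂ, Lip4 D → Nonempty (Cm D) → FamP D (disc D)

/-- The outside is connected. -/
def SOut : Prop := ∀ D : Set ℂ, L.Lip3 D → Nonempty (Cm D) → Out D

/-- Families lie between families of blocks. -/
def SSand : Prop := ∀ (D : Set ℂ) (P : ℝ → Finset Site), IsOpen D → D ⊆ ball 0 (1 / 4) → Out D →
  FamP D P → ∃ P₁ P₂, FamB D P₁ ∧ FamB D P₂ ∧ ∀ᶠ a in 𝓝[>] (0 : ℝ), P₁ a ⊆ P a ∧ P a ⊆ P₂ a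

/-- The ratios. -/
def SRatO : Prop := ∀ Ω Ω' : Dom, Ω'.D = H436.rc '' Ω.D → ∀ Λ, Fam0 Ω.D Λ → RatioO Ω.D Λ

/-- From the families of blocks to all families. -/
def SAll : Prop := ∀ J > (0 : ℝ), ∀ (D : Set ℂ) (X : Finset ℂ), IsOpen D → D ⊆ ball 0 (1 / 4) →
  Out D → (∀ z ∈ X, z ∈ D) → (∃ P, FamP D P) →
  (∀ P, FamB D P → ∃ g > 0, Tendsto (GP J P X) (𝓝[>] 0) (𝓝 g)) → NormX J D X

/-- One spin. -/
def SOne : Prop := ∀ J > (0 : ℝ), ∀ (D : Set ℂ) (P : ℝ → Finset Site), IsOpen D →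
  D ⊆ ball 0 (1 / 4) → FamB D P → RatioO D (fun a => Vx (P a)) → NormE D (fun a => Vx (P a)) →
    ∀ z ∈ D, ∃ g > 0, Tendsto (GP J P {z}) (𝓝[>] 0) (𝓝 g)

/-- An odd number of spins. -/
def SOdd : Prop := ∀ J > (0 : ℝ), ∀ (D : Set ℂ) (P : ℝ → Finset Site), IsOpen D →
  D ⊆ ball 0 (1 / 4) → FamB D P → RatioO D (fun a => Vx (P a)) → NormE D (fun a => Vx (P a)) →
  (∀ z ∈ D, NormX J D {z}) → ∀ X : Finset ℂ, (∀ z ∈ X, z ∈ D) → Odd X.card →
    ∃ g > 0, Tendsto (GP J P X) (𝓝[>] 0) (𝓝 g)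

/-- The result. -/
def SFinP : Prop := ∀ J > (0 : ℝ), ∀ D : Set ℂ, Lip4 D → IsSimplyConnected D →
  AllLim D (crit J D (some fun _ _ => true)) ∧ AllLim D (crit J D (some fun _ _ => false))

end Vale.Agent.P144S
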