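import Vale.Agent.P144S.K.One
import Vale.Agent.P144S.B.Rat
import Vale.Agent.P144S.B.Odd
import Vale.Agent.P144S.W.Wick
import Vale.Agent.P144S.V.Dom
import Vale.Agent.P144S.V.Sand
import Vale.Agent.P144S.L.Cls
import Vale.Agent.P144S.H.Ex
import Vale.Agent.P144S.C.All
import Vale.Agent.P144S.F.Fin
import Vale.Agent.P144S.F.All
import Vale.Agent.P144S.F.Asm
import Vale.Agent.P144S.M.Sq
import Vale.Agent.P144S.M.Cut2
import Vale.Agent.P144Q.U.All

/-!
Existence of the scaling limits for the free, plus and minus boundary conditions.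
-/

namespace Vale.Agent.P144S

open Vale.Agent.P144 Vale.Agent.P144Z

theorem k34P : SK34P := C.k34P H.sex H.slap M.scut M.ssq W.spr

theorem sfinP : SFinP :=
  F.fin K.kw K.blk (F.all (V.sand K.blk)) B.rat K.one (B.odd K.kw K.blk) V.domP L.latP L.out
    k34P (F.asm K.kw (W.pf H.sunq)) (fun _ h => L.lip3_of_lip4 h) fun _ _ hR h => L.lip4_div hR h

theorem all4 {J : ℝ} (hJ : 0 < J) {D : Set ℂ} (h : Lip4 D) (hs : IsSimplyConnected D)
    {b : Option (ℝ → Config)} (hb : StdBC b) : AllLim D (crit J D b) := by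
  rcases hb with rfl | rfl | rfl
  exacts [P144Q.U.all3 hJ (L.lip3_of_lip4 h) hs, (sfinP J hJ D h hs).1, (sfinP J hJ D h hs).2]

end Vale.Agent.P144S
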