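import Vale.Agent.P144S.Main

/-!
The domains and boundary conditions for which the scaling limits are constructed.
-/

namespace Vale.Agent.P144S

open Vale.Agent.P144 Vale.Agent.P144Z

/-- At each boundary point the complement of `D` contains a small closed circular sector whose
half-opening has cosine `c`. -/
def Sect (c : ℝ) (D : Set ℂ) : Prop :=
  ∀ z ∈ frontier D, ∃ r > (0 : ℝ), ∃ ν : ℂ, ‖ν‖ = 1 ∧
    ∀ v : ℂ, ‖v‖ < r → c * ‖v‖ ≤ v.re * ν.re + v.im * ν.im → z + v ∉ D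

/-- Simply connected domains without sharp reentrant corners. -/
def Nice (D : Set ℂ) (b : Option (ℝ → Config)) : Prop :=
  IsSimplyConnected D ∧
    ((IsC1 D ∨ IsOpen D ∧ Bornology.IsBounded D ∧ Convex ℝ D ∨ IsLip 1 D ∨
        IsPC1 D ∧ (∃ c < √2 / 2, Sect c D) ∨ IsPolygon D ∧ Sect (√2 / 2) D) ∧ StdBC b ∨
      (IsLip 2 D ∨ (IsPC1 D ∨ IsPolygon D) ∧ ∃ c < (9 / 10 : ℝ), Sect c D) ∧ b = none)

theorem Nice.allLim {J : ℝ} (hJ : 0 < J) {D : Set ℂ} {b : Option (ℝ → Config)} (h : Nice D b) :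
    AllLim D (crit J D b) := by
  obtain ⟨hs, ⟨h, hb⟩ | ⟨h, rfl⟩⟩ := h
  · refine all4 hJ ?_ hs hb
    rcases h with h | ⟨o, bd, cv⟩ | h | ⟨h, c, hc, w⟩ | ⟨h, w⟩
    exacts [L.lip4_of_C1 h, L.lip4_of_convex o bd cv, L.lip4_of_isLip le_rfl h,
      L.lip4_of_PC1 h fun z hz => ⟨c, hc, w z hz⟩, L.lip4_of_polygon h w]
  · refine P144Q.U.all3 hJ ?_ hs
    rcases h with h | ⟨h | h, c, hc, w⟩
    exacts [P144Q.U.lip3_of_isLip le_rfl h, P144Q.U.lip3_of_PC1 h fun z hz => ⟨c, hc, w z hz⟩,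
      P144Q.U.lip3_of_polygon h fun z hz => ⟨c, hc, w z hz⟩]

end Vale.Agent.P144S
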